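import Vale.Agent.P139Z.Defs

/-!
Block PROB: summability of the weights, local existence, and the event of positive probability.
-/

open Set Metric Filter Topology MeasureTheory ProbabilityTheory
open scoped NNReal ENNReal

namespace Vale.Agent.P139Z.Prob

open Vale.Agent.P139 Vale.Agent.P139.A Vale.Agent.P139.A.WA

variable {d k : ℕ}

theorem summable_rpow_int {s : ℝ} (hs : 1 / 2 < s) :
    Summable fun m : ℤ => ((1 + (m : ℝ) ^ 2) ^ s)⁻¹ := by
  have h1 : Summable fun m : ℤ => |(m : ℝ)| ^ (-(2 * s)) :=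
    Real.summable_abs_int_rpow (by linarith)
  have h2 : Summable fun m : ℤ => if m = 0 then (1 : ℝ) else 0 := (hasSum_ite_eq 0 1).summable
  refine Summable.of_nonneg_of_le (fun m => by positivity) (fun m => ?_) (h1.add h2)
  by_cases hm : m = 0
  · subst hm
    simp only [Int.cast_zero, ne_eq, OfNat.ofNat_ne_zero, not_false_eq_true, zero_pow, add_zero,
      Real.one_rpow, inv_one, abs_zero, if_true]
    have : (0 : ℝ) ≤ 0 ^ (-(2 * s)) := Real.rpow_nonneg le_rfl _
    linarith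
  · simp only [hm, if_false, add_zero]
    have h3 : 0 < |(m : ℝ)| := by
      rw [abs_pos]; exact_mod_cast hm
    rw [Real.rpow_neg h3.le]
    apply inv_anti₀ (Real.rpow_pos_of_pos h3 _)
    rw [Real.rpow_mul h3.le]
    apply Real.rpow_le_rpow (by positivity) _ (by linarith)
    rw [show ((2 : ℝ)) = ((2 : ℕ) : ℝ) by norm_num, Real.rpow_natCast, sq_abs]
    linarith

theorem summable_rpow_weight {β : ℝ} (hβ : (d : ℝ) < β) :
    Summable fun n : Lat d => (Real.sqrt (1 + sqNorm n) ^ β)⁻¹ := by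
  rcases Nat.eq_zero_or_pos d with rfl | hd
  · exact summable_of_hasFiniteSupport (Set.toFinite _)
  have hd0 : (0 : ℝ) < d := by exact_mod_cast hd
  set s : ℝ := β / (2 * d) with hs
  have hs1 : 1 / 2 < s := by
    rw [hs, lt_div_iff₀ (by positivity)]
    linarith
  refine Summable.of_nonneg_of_le (fun n => by positivity) (fun n => ?_)
    (summable_prod_fin (d := d) (f := fun m => ((1 + (m : ℝ) ^ 2) ^ s)⁻¹)
      (fun m => by positivity) (summable_rpow_int hs1))
  rw [Finset.prod_inv_distrib]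
  apply inv_anti₀
  · exact Finset.prod_pos fun j _ => by positivity
  · have h0 := sqNorm_nonneg n
    calc ∏ j, (1 + (n j : ℝ) ^ 2) ^ s ≤ ∏ _j : Fin d, (1 + sqNorm n) ^ s := by
          refine Finset.prod_le_prod (fun j _ => by positivity) (fun j _ => ?_)
          apply Real.rpow_le_rpow (by positivity) _ (by linarith)
          have : (n j : ℝ) ^ 2 ≤ sqNorm n := by
            unfold sqNorm
            exact Finset.single_le_sum (f := fun j => (n j : ℝ) ^ 2) (fun i _ => sq_nonneg _)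
              (Finset.mem_univ j)
          linarith
      _ = Real.sqrt (1 + sqNorm n) ^ β := by
          rw [Finset.prod_const, Finset.card_univ, Fintype.card_fin, ← Real.rpow_natCast,
            ← Real.rpow_mul (by linarith), Real.sqrt_eq_rpow, ← Real.rpow_mul (by linarith), hs]
          congr 1
          field_simp

theorem W_le_sqrt (n : Lat d) : W k n ≤ 2 ^ k * Real.sqrt (1 + sqNorm n) ^ (k : ℝ) := by
  have h0 := sqNorm_nonneg n
  rw [Real.rpow_natCast, ← mul_pow]
  unfold W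
  gcongr
  have h1 : ‖n‖ ≤ Real.sqrt (1 + sqNorm n) := by
    apply Real.le_sqrt_of_sq_le
    have := sup_sq_le n
    linarith
  have h2 : 1 ≤ Real.sqrt (1 + sqNorm n) := by
    apply Real.le_sqrt_of_sq_le
    linarith
  linarith

theorem w_pos (α : ℝ) (n : Lat d) : 0 < Real.sqrt (1 + sqNorm n) ^ (-α) :=
  Real.rpow_pos_of_pos (Real.sqrt_pos.2 (by linarith [sqNorm_nonneg n])) _

theorem summable_q {α : ℝ} (hα : (k : ℝ) + d < α) :
    Summable fun n : Lat d => W k n * Real.sqrt (1 + sqNorm n) ^ (-α) := by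
  refine Summable.of_nonneg_of_le (fun n => ?_) (fun n => ?_)
    ((summable_rpow_weight (d := d) (β := α - k) (by linarith)).mul_left (2 ^ k))
  · exact mul_nonneg (W_pos n).le (w_pos α n).le
  · have h0 := sqNorm_nonneg n
    have h1 : 0 < Real.sqrt (1 + sqNorm n) := Real.sqrt_pos.2 (by linarith)
    calc W k n * Real.sqrt (1 + sqNorm n) ^ (-α)
        ≤ 2 ^ k * Real.sqrt (1 + sqNorm n) ^ (k : ℝ) * Real.sqrt (1 + sqNorm n) ^ (-α) := by
          gcongr
          exact W_le_sqrt n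
      _ = 2 ^ k * (Real.sqrt (1 + sqNorm n) ^ (α - k))⁻¹ := by
          rw [mul_assoc, ← Real.rpow_add h1, ← Real.rpow_neg h1.le]
          congr 2
          ring

theorem norm_datum {Ω : Type*} (g : Lat d → Ω → ℂ) (α : ℝ) (ω : Ω) (n : Lat d) :
    ‖datum g α ω n‖ = Real.sqrt (1 + sqNorm n) ^ (-α) * ‖g n ω‖ := by
  unfold datum
  rw [norm_mul, Complex.norm_real, Real.norm_of_nonneg (w_pos α n).le, mul_comm]

/-- local existence in the weighted Wiener algebra -/
theorem local_exists (m : ℕ) (a : WA d k) : ∃ T : ℝ, 0 < T ∧ ∃ u : ℝ → WA d k, u 0 = a ∧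
    IsSolution d (2 * m + 1) k T (fun t => coef (u t)) := by
  set M := wienerModel d k with hM
  set ρ : ℝ := ‖a‖ + 1 with hρ
  have hρ0 : 0 < ρ := by positivity
  set T : ℝ := 1 / (2 * ρ) ^ (2 * m + 1) with hT
  have hT0 : 0 < T := by positivity
  obtain ⟨v, hv0, hv⟩ := M.exists_flow m hρ0 hT0.le a
  have hbd : ∀ t ∈ Icc 0 T, ‖v t‖ ≤ ρ := by
    intro t ht
    have h1 := (convex_Icc (0 : ℝ) T).norm_image_sub_le_of_norm_hasDerivWithin_le
      (f := v) (C := (2 * ρ) ^ (2 * m + 1)) (fun s hs => hv s hs) (fun s hs => ?_)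
      ⟨le_rfl, hT0.le⟩ ht
    · rw [sub_zero, Real.norm_of_nonneg ht.1, hv0] at h1
      have h2 : (2 * ρ) ^ (2 * m + 1) * t ≤ 1 := by
        calc (2 * ρ) ^ (2 * m + 1) * t ≤ (2 * ρ) ^ (2 * m + 1) * T := by gcongr; exact ht.2
          _ = 1 := by rw [hT]; field_simp
      have h3 : ‖v t‖ ≤ ‖v t - a‖ + ‖a‖ := by
        simpa using norm_add_le (v t - a) a
      linarith
    · refine (cutField_norm_le (M := ⟨(2 * ρ) ^ (2 * m + 1), by positivity⟩) hρ0
        (fun x hx => ?_) (v s))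
      refine (M.field_norm_le m s x).trans ?_
      have hx' : ‖x‖ ≤ 2 * ρ := by simpa only [mem_closedBall, dist_zero_right] using hx
      show ‖x‖ ^ (2 * m + 1) ≤ (2 * ρ) ^ (2 * m + 1)
      gcongr
  refine ⟨T, hT0, fun t => M.U t (v t), ?_, ?_⟩
  · show M.U 0 (v 0) = a
    rw [hv0]
    apply M.ext
    intro n
    rw [M.coeff_U_zero_time]
  · refine isSolution_of (M.continuousOn_U (HasDerivWithinAt.continuousOn hv)) ?_
    intro t ht n
    have h2 := M.coeff_deriv hρ0 (hv t ht) (hbd t ht) n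
    refine h2.congr_deriv ?_
    rw [nl_eq_F]
    show -Complex.I * ((sqNorm n : ℂ) * coef (M.U t (v t)) n + coef (F m (M.U t (v t))) n) = _
    ring

theorem ae_summable_q {Ω : Type*} [MeasurableSpace Ω] {P : Measure Ω} {g : Lat d → Ω → ℂ}
    (hm : ∀ n, Measurable (g n)) (hg : ∀ n, P.map (g n) = stdComplexGaussian) {q : Lat d → ℝ}
    (hq0 : ∀ n, 0 ≤ q n) (hq : Summable q) : ∀ᵐ ω ∂P, Summable fun n => q n * ‖g n ω‖ := by
  have hmeas : ∀ n, Measurable fun ω => ‖g n ω‖ₑ * ENNReal.ofReal (q n) := fun n => by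
    have := hm n
    fun_prop
  have h1 : ∫⁻ ω, ∑' n, ‖g n ω‖ₑ * ENNReal.ofReal (q n) ∂P ≠ ∞ := by
    rw [lintegral_tsum fun n => (hmeas n).aemeasurable]
    have h2 : ∀ n, ∫⁻ ω, ‖g n ω‖ₑ * ENNReal.ofReal (q n) ∂P =
        (∫⁻ z, ‖z‖ₑ ∂stdComplexGaussian) * ENNReal.ofReal (q n) := by
      intro n
      rw [lintegral_mul_const _ (by have := hm n; fun_prop), ← hg n,
        lintegral_map (by fun_prop) (hm n)]
    simp_rw [h2]
    rw [ENNReal.tsum_mul_left]
    exact ENNReal.mul_ne_top std_moment.ne hq.tsum_ofReal_ne_top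
  have h3 := ae_lt_top (Measurable.tsum hmeas) h1
  filter_upwards [h3] with ω hω
  have h4 : ∑' n, ENNReal.ofReal (q n * ‖g n ω‖) ≠ ∞ := by
    refine ne_of_eq_of_ne (tsum_congr fun n => ?_) hω.ne
    rw [ENNReal.ofReal_mul (hq0 n), ofReal_norm, mul_comm]
  exact (ENNReal.summable_toReal h4).congr fun n => by
    rw [ENNReal.toReal_ofReal (mul_nonneg (hq0 n) (norm_nonneg _))]

theorem gauss_pos (c : ℝ) {r : ℝ} (hr : 0 < r) :
    0 < gaussianReal 0 (1 / 2) (Ioo (c - r) (c + r)) := by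
  rw [pos_iff_ne_zero]
  intro h
  have h1 := gaussianReal_absolutelyContinuous' 0 (v := 1 / 2) (by norm_num) h
  rw [Real.volume_Ioo] at h1
  simp only [ENNReal.ofReal_eq_zero] at h1
  linarith

theorem std_pos (c : ℂ) {r : ℝ} (hr : 0 < r) : 0 < stdComplexGaussian (closedBall c r) := by
  unfold stdComplexGaussian
  rw [Measure.map_apply measurable_mkC measurableSet_closedBall]
  refine lt_of_lt_of_le ?_ (measure_mono
    (s := Ioo (c.re - r / 2) (c.re + r / 2) ×ˢ Ioo (c.im - r / 2) (c.im + r / 2)) ?_)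
  · rw [Measure.prod_prod]
    exact ENNReal.mul_pos (gauss_pos _ (half_pos hr)).ne' (gauss_pos _ (half_pos hr)).ne'
  · rintro ⟨x, y⟩ ⟨hx, hy⟩
    simp only [mem_preimage, mem_closedBall, dist_eq_norm]
    have h1 : ‖(⟨x, y⟩ : ℂ) - c‖ ≤ |x - c.re| + |y - c.im| := by
      have := Complex.norm_le_abs_re_add_abs_im ((⟨x, y⟩ : ℂ) - c)
      simpa using this
    have h2 : |x - c.re| ≤ r / 2 := abs_le.2 ⟨by linarith [hx.1], by linarith [hx.2]⟩
    have h3 : |y - c.im| ≤ r / 2 := abs_le.2 ⟨by linarith [hy.1], by linarith [hy.2]⟩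
    linarith

theorem meas_tail {Ω : Type*} [MeasurableSpace Ω] (g : Lat d → Ω → ℂ) (s : Finset (Lat d))
    (c : Lat d → ℝ≥0∞) (h : ∀ n ∉ s, Measurable (g n)) :
    Measurable fun ω => ∑' n, if n ∈ s then 0 else c n * ‖g n ω‖ₑ := by
  refine Measurable.tsum fun n => ?_
  by_cases hn : n ∈ s
  · simp only [hn, if_true]
    exact measurable_const
  · simp only [hn, if_false]
    exact (h n hn).enorm.const_mul _

theorem meas_low {Ω : Type*} [MeasurableSpace Ω] (g : Lat d → Ω → ℂ) (s : Finset (Lat d))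
    (c : Lat d → ℂ) (r : ℝ) (h : ∀ n ∈ s, Measurable (g n)) :
    MeasurableSet (⋂ n ∈ s, g n ⁻¹' closedBall (c n) r) :=
  Finset.measurableSet_biInter _ fun n hn => h n hn measurableSet_closedBall

theorem summable_tail {q : Lat d → ℝ} (hq0 : ∀ n, 0 ≤ q n) (hq : Summable q)
    (s : Finset (Lat d)) : Summable fun n => if n ∈ s then 0 else q n :=
  Summable.of_nonneg_of_le (fun n => by split_ifs <;> simp [hq0])
    (fun n => by split_ifs <;> simp [hq0]) hq

theorem tail_small {q : Lat d → ℝ} (hq : Summable q) {η : ℝ} (hη : 0 < η) :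
    ∀ᶠ s : Finset (Lat d) in atTop, ∑' n, (if n ∈ s then 0 else q n) < η := by
  have h0 : Tendsto (fun s : Finset (Lat d) => ∑ n ∈ s, q n) atTop (𝓝 (∑' n, q n)) := hq.hasSum
  filter_upwards [h0.eventually (lt_mem_nhds (sub_lt_self _ hη))] with s hs
  have h1 : ∀ n, (if n ∈ s then 0 else q n) = q n - (if n ∈ s then q n else 0) := fun n => by
    split_ifs <;> simp
  have h2 : Summable fun n => if n ∈ s then q n else 0 :=
    summable_of_ne_finset_zero (s := s) fun n hn => by simp [hn]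
  have h3 : (∑' n, if n ∈ s then q n else 0) = ∑ n ∈ s, q n := by
    rw [tsum_eq_sum (s := s) (fun n hn => if_neg hn)]
    exact Finset.sum_congr rfl fun n hn => if_pos hn
  rw [tsum_congr h1, hq.tsum_sub h2, h3]
  linarith

/-- finitely many modes close to given values and a small tail: positive probability -/
theorem event {Ω : Type*} [mΩ : MeasurableSpace Ω] (P : Measure Ω) [IsProbabilityMeasure P]
    (g : Lat d → Ω → ℂ) (hm : ∀ n, Measurable (g n)) (hind : iIndepFun g P)
    (hg : ∀ n, P.map (g n) = stdComplexGaussian) {q : Lat d → ℝ} (hq0 : ∀ n, 0 ≤ q n)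
    (hq : Summable q) {ρ : ℝ} (hρ : 0 < ρ) (c : Lat d → ℂ) :
    ∀ᶠ s : Finset (Lat d) in atTop, ∀ r : ℝ, 0 < r → ∃ E : Set Ω, MeasurableSet E ∧ 0 < P E ∧
      ∀ ω ∈ E, (∀ n ∈ s, ‖g n ω - c n‖ ≤ r) ∧
        (Summable fun n => if n ∈ s then 0 else q n * ‖g n ω‖) ∧
        ∑' n, (if n ∈ s then 0 else q n * ‖g n ω‖) < ρ := by
  classical
  set mom : ℝ≥0∞ := ∫⁻ z, ‖z‖ₑ ∂stdComplexGaussian with hmom
  have hmomT : mom ≠ ∞ := std_moment.ne
  set η : ℝ := ρ / (2 * (mom.toReal + 1)) with hη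
  have hm0 : 0 ≤ mom.toReal := ENNReal.toReal_nonneg
  have hη0 : 0 < η := by positivity
  filter_upwards [tail_small hq hη0] with s hq't r hr0
  set q' : Lat d → ℝ := fun n => if n ∈ s then 0 else q n with hq'
  have hq'0 : ∀ n, 0 ≤ q' n := fun n => by simp only [hq']; split_ifs <;> simp [hq0]
  have hq's : Summable q' := summable_tail hq0 hq s
  set τ : Ω → ℝ≥0∞ := fun ω => ∑' n, if n ∈ s then 0 else ENNReal.ofReal (q n) * ‖g n ω‖ₑ with hτ
  have hτm : Measurable τ := meas_tail g s _ fun n _ => hm n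
  have hτi : ∫⁻ ω, τ ω ∂P ≤ ENNReal.ofReal (ρ / 2) := by
    have h1 : ∀ n, Measurable fun ω => if n ∈ s then (0 : ℝ≥0∞) else
        ENNReal.ofReal (q n) * ‖g n ω‖ₑ := by
      intro n
      by_cases hn : n ∈ s
      · simp only [hn, if_true]; exact measurable_const
      · simp only [hn, if_false]; exact (hm n).enorm.const_mul _
    simp only [hτ]
    rw [lintegral_tsum fun n => (h1 n).aemeasurable]
    have h2 : ∀ n, ∫⁻ ω, (if n ∈ s then (0 : ℝ≥0∞) else ENNReal.ofReal (q n) * ‖g n ω‖ₑ) ∂P =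
        ENNReal.ofReal (q' n) * mom := by
      intro n
      by_cases hn : n ∈ s
      · simp [hn, hq']
      · simp only [hn, hq', if_false]
        rw [lintegral_const_mul _ (hm n).enorm, hmom, ← hg n, lintegral_map (by fun_prop) (hm n)]
    simp_rw [h2]
    rw [ENNReal.tsum_mul_right, ← ENNReal.ofReal_tsum_of_nonneg hq'0 hq's,
      ← ENNReal.ofReal_toReal hmomT, ← ENNReal.ofReal_mul (tsum_nonneg hq'0)]
    apply ENNReal.ofReal_le_ofReal
    calc (∑' n, q' n) * mom.toReal ≤ η * (mom.toReal + 1) := by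
          gcongr
          linarith
      _ = ρ / 2 := by rw [hη]; field_simp
  have hB : 0 < P {ω | τ ω < ENNReal.ofReal ρ} := by
    have h1 := mul_meas_ge_le_lintegral (μ := P) hτm (ENNReal.ofReal ρ)
    have h2 : P {ω | ENNReal.ofReal ρ ≤ τ ω} ≤ 1 / 2 := by
      have h3 : ENNReal.ofReal ρ * P {ω | ENNReal.ofReal ρ ≤ τ ω} ≤
          ENNReal.ofReal ρ * (1 / 2) := by
        refine (h1.trans hτi).trans (le_of_eq ?_)
        rw [show (1 / 2 : ℝ≥0∞) = ENNReal.ofReal (1 / 2) by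
          rw [ENNReal.ofReal_div_of_pos (by norm_num)]; simp, ← ENNReal.ofReal_mul (by positivity)]
        congr 1
        ring
      exact (ENNReal.mul_le_mul_iff_right (ENNReal.ofReal_pos.2 hρ).ne'
        ENNReal.ofReal_ne_top).1 h3
    have h3 : {ω | τ ω < ENNReal.ofReal ρ} = {ω | ENNReal.ofReal ρ ≤ τ ω}ᶜ := by
      ext ω; simp
    rw [h3, prob_compl_eq_one_sub (measurableSet_le measurable_const hτm)]
    have h4 : (1 / 2 : ℝ≥0∞) < 1 := by
      rw [one_div]; exact ENNReal.one_half_lt_one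
    exact tsub_pos_of_lt (h2.trans_lt h4)
  have hA : 0 < P (⋂ n ∈ s, g n ⁻¹' closedBall (c n) r) := by
    rw [hind.measure_inter_preimage_eq_mul s fun n _ => measurableSet_closedBall]
    rw [pos_iff_ne_zero, Finset.prod_ne_zero_iff]
    intro n _
    rw [← Measure.map_apply (hm n) measurableSet_closedBall, hg n]
    exact (std_pos _ hr0).ne'
  have hI := indep_iSup_of_disjoint (m := fun n => MeasurableSpace.comap (g n) inferInstance)
    (fun n => (hm n).comap_le) hind (S := (s : Set (Lat d))) (T := (s : Set (Lat d))ᶜ)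
    disjoint_compl_right
  have hAm : MeasurableSet[⨆ n ∈ (s : Set (Lat d)), MeasurableSpace.comap (g n) inferInstance]
      (⋂ n ∈ s, g n ⁻¹' closedBall (c n) r) :=
    @meas_low d Ω (⨆ n ∈ (s : Set (Lat d)), MeasurableSpace.comap (g n) inferInstance) g s c r
      fun n hn => Measurable.of_comap_le
        (le_iSup₂_of_le (f := fun n (_ : n ∈ (s : Set (Lat d))) =>
          MeasurableSpace.comap (g n) inferInstance) n hn le_rfl)
  have hBm : MeasurableSet[⨆ n ∈ (s : Set (Lat d))ᶜ, MeasurableSpace.comap (g n) inferInstance]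
      {ω | τ ω < ENNReal.ofReal ρ} := by
    have h1 := @meas_tail d Ω (⨆ n ∈ (s : Set (Lat d))ᶜ, MeasurableSpace.comap (g n) inferInstance)
      g s (fun n => ENNReal.ofReal (q n)) fun n hn => Measurable.of_comap_le
        (le_iSup₂_of_le (f := fun n (_ : n ∈ (s : Set (Lat d))ᶜ) =>
          MeasurableSpace.comap (g n) inferInstance) n hn le_rfl)
    exact h1 measurableSet_Iio
  have hAB := (Indep_iff _ _ _).1 hI _ _ hAm hBm
  refine ⟨(⋂ n ∈ s, g n ⁻¹' closedBall (c n) r) ∩ {ω | τ ω < ENNReal.ofReal ρ},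
    (meas_low g s c r fun n _ => hm n).inter (hτm measurableSet_Iio), ?_, ?_⟩
  · rw [hAB]
    exact ENNReal.mul_pos hA.ne' hB.ne'
  rintro ω ⟨hω1, hω2⟩
  simp only [mem_iInter, mem_preimage, mem_closedBall, dist_eq_norm] at hω1
  have hω3 : τ ω < ENNReal.ofReal ρ := hω2
  have hnn : ∀ n, 0 ≤ (if n ∈ s then 0 else q n * ‖g n ω‖) := fun n => by
    split_ifs
    · exact le_rfl
    · exact mul_nonneg (hq0 n) (norm_nonneg _)
  have hE : τ ω = ∑' n, ENNReal.ofReal (if n ∈ s then 0 else q n * ‖g n ω‖) := by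
    refine tsum_congr fun n => ?_
    split_ifs
    · simp
    · rw [ENNReal.ofReal_mul (hq0 n), ofReal_norm]
  rw [hE] at hω3
  have hsum : Summable fun n => if n ∈ s then 0 else q n * ‖g n ω‖ :=
    (ENNReal.summable_toReal (hω3.trans ENNReal.ofReal_lt_top).ne).congr fun n =>
      ENNReal.toReal_ofReal (hnn n)
  rw [← ENNReal.ofReal_tsum_of_nonneg hnn hsum, ENNReal.ofReal_lt_ofReal_iff hρ] at hω3
  exact ⟨hω1, hsum, hω3⟩

end Vale.Agent.P139Z.Prob
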